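import Vale.Agent.P207.SPH.Defs

/-!
# P207, project SPH, row R3: the Jacobi tensor `A = (Y - Z) S⁻¹`
-/

open Matrix MeasureTheory Set Filter Topology

noncomputable section

namespace Vale.Agent.P207.SPH.H647

open Vale.Agent.P207.SPH

theorem md_mul {k l n : ℕ} {M : ℝ → Matrix (Fin k) (Fin l) ℝ} {M' : Matrix (Fin k) (Fin l) ℝ}
    {N : ℝ → Matrix (Fin l) (Fin n) ℝ} {N' : Matrix (Fin l) (Fin n) ℝ} {t : ℝ}
    (hM : MD M M' t) (hN : MD N N' t) : MD (fun s => M s * N s) (M' * N t + M t * N') t := by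
  intro i j
  have h : HasDerivAt (fun s => ∑ c, M s i c * N s c j)
      (∑ c, (M' i c * N t c j + M t i c * N' c j)) t :=
    HasDerivAt.fun_sum fun c _ => (hM i c).mul (hN c j)
  simp only [Matrix.mul_apply, Matrix.add_apply]
  rw [← Finset.sum_add_distrib]
  exact h

theorem md_add {k l : ℕ} {M N : ℝ → Matrix (Fin k) (Fin l) ℝ} {M' N' : Matrix (Fin k) (Fin l) ℝ}
    {t : ℝ} (hM : MD M M' t) (hN : MD N N' t) : MD (fun s => M s + N s) (M' + N') t :=
  fun i j => (hM i j).add (hN i j)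

theorem md_sub {k l : ℕ} {M N : ℝ → Matrix (Fin k) (Fin l) ℝ} {M' N' : Matrix (Fin k) (Fin l) ℝ}
    {t : ℝ} (hM : MD M M' t) (hN : MD N N' t) : MD (fun s => M s - N s) (M' - N') t :=
  fun i j => (hM i j).sub (hN i j)

theorem md_const {k l : ℕ} (M : Matrix (Fin k) (Fin l) ℝ) (t : ℝ) :
    MD (fun _ => M) 0 t := fun i j => hasDerivAt_const t (M i j)

theorem md_congr {k l : ℕ} {M : ℝ → Matrix (Fin k) (Fin l) ℝ} {M' N' : Matrix (Fin k) (Fin l) ℝ}
    {t : ℝ} (hM : MD M M' t) (h : M' = N') : MD M N' t := h ▸ hM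

theorem md_mul_const {k l n : ℕ} {M : ℝ → Matrix (Fin k) (Fin l) ℝ}
    {M' : Matrix (Fin k) (Fin l) ℝ} {t : ℝ} (hM : MD M M' t) (C : Matrix (Fin l) (Fin n) ℝ) :
    MD (fun s => M s * C) (M' * C) t :=
  md_congr (md_mul hM (md_const C t)) (by rw [Matrix.mul_zero, add_zero])

theorem S_isUnit {m : ℕ} {X : Type} [TopologicalSpace X] (D : Sys m X) (f : X) :
    IsUnit (D.S f).det := by
  refine (Matrix.PosDef.det_pos ?_).ne'.isUnit
  refine Matrix.PosDef.of_dotProduct_mulVec_pos ?_ fun {x} hx => ?_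
  · change (D.U f + D.V f)ᴴ = D.U f + D.V f
    rw [Matrix.conjTranspose_add, Matrix.conjTranspose_eq_transpose_of_trivial,
      Matrix.conjTranspose_eq_transpose_of_trivial, D.sU, D.sV]
  · have h1 := D.loU f x
    have h2 := D.loV f x
    have h3 : 0 < x ⬝ᵥ x := by
      have := Matrix.dotProduct_star_self_pos_iff (v := x) |>.2 hx
      simpa using this
    have h4 : x ⬝ᵥ (D.S f *ᵥ x) = x ⬝ᵥ (D.U f *ᵥ x) + x ⬝ᵥ (D.V f *ᵥ x) := by
      change x ⬝ᵥ ((D.U f + D.V f) *ᵥ x) = _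
      rw [Matrix.add_mulVec, dotProduct_add]
    rw [star_trivial, h4]
    nlinarith [D.a_pos]

theorem jac : JacStmt := by
  intro m X _ _ D Y Z hY hZ f
  have hZd : ∀ t, MD (fun s => Z s f) (-(D.V (D.Φ t f) * Z t f)) t := fun t =>
    md_congr (hZ.der f t) (Matrix.neg_mul _ _)
  refine ⟨?_, ?_, fun t => ⟨?_, ?_⟩⟩
  · change (Y 0 f - Z 0 f) * (D.S f)⁻¹ = 0
    rw [hY.zero, hZ.zero, sub_self, zero_mul]
  · change (D.U (D.Φ 0 f) * Y 0 f + D.V (D.Φ 0 f) * Z 0 f) * (D.S f)⁻¹ = 1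
    rw [hY.zero, hZ.zero, D.zero, mul_one, mul_one]
    exact Matrix.mul_nonsing_inv _ (S_isUnit D f)
  · refine md_congr (md_mul_const (md_sub (hY.der f t) (hZd t)) ((D.S f)⁻¹)) ?_
    rw [sub_neg_eq_add]
    rfl
  · refine md_congr (md_mul_const (md_add (md_mul (D.dU f t) (hY.der f t))
      (md_mul (D.dV f t) (hZd t))) ((D.S f)⁻¹)) ?_
    change _ = D.K (D.Φ t f) * ((Y t f - Z t f) * (D.S f)⁻¹)
    rw [← mul_assoc (D.K (D.Φ t f))]
    refine congrArg (fun M => M * (D.S f)⁻¹) ?_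
    noncomm_ring

end Vale.Agent.P207.SPH.H647
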