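import Vale.Agent.P207.SPH.Defs

/-!
# P207, project SPH, row R4: asymptotics of the area density

`det A_T = det Y_T · det (1 - Y_T⁻¹ Z_T) / det S` and `|Y_T⁻¹ Z_T x| ≤ e^{-2aT} |x|`.
-/

open Matrix MeasureTheory Set Filter Topology

noncomputable section

namespace Vale.Agent.P207.SPH.H647

open Vale.Agent.P207.SPH

/-- `det (1 - E)` is Lipschitz at `E = 0` -/
theorem det_lip (m : ℕ) : ∃ K ε : ℝ, 0 ≤ K ∧ 0 < ε ∧ ∀ δ : ℝ, δ ≤ ε → ∀ E : Mt m,
    (∀ i j, |E i j| ≤ δ) → 0 ≤ δ → |(1 - E).det - 1| ≤ K * δ := by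
  let F : (Fin m → Fin m → ℝ) → ℝ := fun M => (1 - Matrix.of M : Mt m).det
  have hF : ContDiff ℝ 1 F := by
    change ContDiff ℝ 1 fun M : Fin m → Fin m → ℝ => (1 - Matrix.of M : Mt m).det
    simp only [Matrix.det_apply', Matrix.sub_apply, Matrix.of_apply]
    refine ContDiff.sum fun σ _ => contDiff_const.mul (contDiff_prod fun i _ => ?_)
    refine contDiff_const.sub ?_
    exact contDiff_apply_apply ℝ ℝ (σ i) i
  obtain ⟨K, t, ht, hK⟩ := hF.contDiffAt (x := 0) |>.exists_lipschitzOnWith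
  obtain ⟨ε, hε, hb⟩ := Metric.mem_nhds_iff.1 ht
  refine ⟨K, ε / 2, K.2, by positivity, fun δ hδ E hE h0 => ?_⟩
  have h1 : ‖(fun i j => E i j : Fin m → Fin m → ℝ)‖ ≤ δ :=
    (pi_norm_le_iff_of_nonneg h0).2 fun i => (pi_norm_le_iff_of_nonneg h0).2 fun j => by
      rw [Real.norm_eq_abs]; exact hE i j
  have h2 : (fun i j => E i j : Fin m → Fin m → ℝ) ∈ t := hb (by
    rw [Metric.mem_ball, dist_zero_right]; linarith)
  have h3 : (0 : Fin m → Fin m → ℝ) ∈ t := hb (Metric.mem_ball_self hε)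
  have h4 := hK.dist_le_mul _ h2 _ h3
  rw [dist_zero_right, Real.dist_eq] at h4
  have h5 : F 0 = 1 := by
    change (1 - Matrix.of (0 : Fin m → Fin m → ℝ) : Mt m).det = 1
    rw [show (Matrix.of (0 : Fin m → Fin m → ℝ) : Mt m) = 0 from rfl, sub_zero, Matrix.det_one]
  rw [h5] at h4
  exact h4.trans (mul_le_mul_of_nonneg_left h1 K.2)

theorem S_pos {m : ℕ} {X : Type} [TopologicalSpace X] (D : Sys m X) (f : X) :
    0 < (D.S f).det := by
  refine Matrix.PosDef.det_pos ?_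
  refine Matrix.PosDef.of_dotProduct_mulVec_pos ?_ fun {x} hx => ?_
  · change (D.U f + D.V f)ᴴ = D.U f + D.V f
    rw [Matrix.conjTranspose_add, Matrix.conjTranspose_eq_transpose_of_trivial,
      Matrix.conjTranspose_eq_transpose_of_trivial, D.sU, D.sV]
  · have h1 := D.loU f x
    have h2 := D.loV f x
    have h3 : 0 < x ⬝ᵥ x := by
      have := Matrix.dotProduct_star_self_pos_iff (v := x) |>.2 hx
      simpa using this
    have h4 : x ⬝ᵥ (D.S f *ᵥ x) = x ⬝ᵥ (D.U f *ᵥ x) + x ⬝ᵥ (D.V f *ᵥ x) := by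
      change x ⬝ᵥ ((D.U f + D.V f) *ᵥ x) = _
      rw [Matrix.add_mulVec, dotProduct_add]
    rw [star_trivial, h4]
    nlinarith [D.a_pos]

/-- the bound of `Y⁻¹ Z` -/
theorem E_le {m : ℕ} {Y Z E : Mt m} {a T : ℝ}
    (hY : ∀ x, Real.exp (2 * a * T) * (x ⬝ᵥ x) ≤ (Y *ᵥ x) ⬝ᵥ (Y *ᵥ x))
    (hZ : ∀ x, (Z *ᵥ x) ⬝ᵥ (Z *ᵥ x) ≤ Real.exp (-(2 * a * T)) * (x ⬝ᵥ x))
    (hE : Y * E = Z) (i j : Fin m) : |E i j| ≤ Real.exp (-(2 * a * T)) := by
  have h1 := hY (E *ᵥ Pi.single j 1)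
  have h2 := hZ (Pi.single j 1)
  rw [Matrix.mulVec_mulVec, hE] at h1
  have h3 : (Pi.single j (1 : ℝ) : Fin m → ℝ) ⬝ᵥ Pi.single j 1 = 1 := by simp
  rw [h3, mul_one] at h2
  have h4 : E i j * E i j ≤ (E *ᵥ Pi.single j 1) ⬝ᵥ (E *ᵥ Pi.single j 1) := by
    have h5 : (E *ᵥ Pi.single j 1) = fun k => E k j := by
      ext k; simp
    rw [h5]
    exact Finset.single_le_sum (f := fun k => E k j * E k j)
      (fun k _ => mul_self_nonneg _) (Finset.mem_univ i)
  have h6 : Real.exp (2 * a * T) * (E i j * E i j) ≤ Real.exp (-(2 * a * T)) :=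
    ((mul_le_mul_of_nonneg_left h4 (Real.exp_pos _).le).trans h1).trans h2
  have h7 : E i j * E i j ≤ Real.exp (-(2 * a * T)) * Real.exp (-(2 * a * T)) := by
    have h8 := mul_le_mul_of_nonneg_left h6 (Real.exp_pos (-(2 * a * T))).le
    rw [← mul_assoc, ← Real.exp_add] at h8
    simpa using h8
  exact abs_le_of_sq_le_sq (by rw [sq, sq]; exact h7) (Real.exp_pos _).le

theorem area (h2 : GrowStmt) : AreaStmt := by
  intro m X _ _ D Y Z hY hZ
  obtain ⟨K, ε, hK, hε, hL⟩ := det_lip m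
  have hg := h2 m X D Y Z hY hZ
  have ha := D.a_pos
  -- large times
  have hev : ∀ᶠ T : ℝ in atTop, 0 ≤ T ∧ Real.exp (-(2 * D.a * T)) ≤ ε ∧
      K * Real.exp (-(2 * D.a * T)) ≤ 1 / 2 := by
    have h1 : Tendsto (fun T : ℝ => Real.exp (-(2 * D.a * T))) atTop (𝓝 0) := by
      refine Real.tendsto_exp_neg_atTop_nhds_zero.comp ?_
      exact tendsto_id.const_mul_atTop (by positivity)
    have h3 : Tendsto (fun T : ℝ => K * Real.exp (-(2 * D.a * T))) atTop (𝓝 0) := by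
      simpa using h1.const_mul K
    exact (eventually_ge_atTop 0).and ((h1.eventually_le_const hε).and
      (h3.eventually_le_const (by norm_num)))
  obtain ⟨T₀, hT⟩ := eventually_atTop.1 hev
  refine ⟨2 * K, T₀, by positivity, fun T hTT f => ?_⟩
  obtain ⟨h0, h3, h4⟩ := hT T hTT
  set δ := Real.exp (-(2 * D.a * T)) with hδ
  have hdY : (Y T f).det = Real.exp (∫ s in (0 : ℝ)..T, (D.U (D.Φ s f)).trace) := hY.det f T
  have hYu : IsUnit (Y T f).det := by
    rw [hdY]; exact (Real.exp_pos _).ne'.isUnit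
  let E : Mt m := (Y T f)⁻¹ * Z T f
  have hE : Y T f * E = Z T f := by
    change Y T f * ((Y T f)⁻¹ * Z T f) = Z T f
    rw [← mul_assoc, Matrix.mul_nonsing_inv _ hYu, one_mul]
  have h5 := hL δ h3 E (fun i j => E_le (fun x => (hg T h0 f x).1)
    (fun x => (hg T h0 f x).2.2) hE i j) (Real.exp_pos _).le
  have h6 : |(1 - E).det - 1| ≤ 1 / 2 := h5.trans h4
  have h7 : (1 : ℝ) / 2 ≤ (1 - E).det := by
    have := (abs_le.1 h6).1
    linarith
  have h8 : (D.A Y Z T f).det = (Y T f).det * (1 - E).det * ((D.S f).det)⁻¹ := by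
    change ((Y T f - Z T f) * (D.S f)⁻¹).det = _
    have h9 : Y T f - Z T f = Y T f * (1 - E) := by
      rw [mul_sub, mul_one, hE]
    rw [h9, Matrix.det_mul, Matrix.det_mul, Matrix.det_nonsing_inv, Ring.inverse_eq_inv']
  have hS := S_pos D f
  have hYp : 0 < (Y T f).det := by rw [hdY]; exact Real.exp_pos _
  have hEp : 0 < (1 - E).det := by linarith
  refine ⟨by rw [h8]; positivity, ?_⟩
  rw [h8, Real.log_mul (by positivity) (by positivity), Real.log_mul (by positivity) (by positivity),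
    Real.log_inv, hdY, Real.log_exp]
  have h10 : ∀ y : ℝ, (∫ s in (0 : ℝ)..T, (D.U (D.Φ s f)).trace) + Real.log (1 - E).det + -y -
      ((∫ s in (0 : ℝ)..T, (D.U (D.Φ s f)).trace) - y) = Real.log (1 - E).det := fun y => by ring
  rw [h10]
  -- |log x| ≤ 2 |x - 1| for x ≥ 1/2
  have h11 : |Real.log (1 - E).det| ≤ 2 * |(1 - E).det - 1| := by
    set x := (1 - E).det with hx
    have h12 : Real.log x ≤ x - 1 := Real.log_le_sub_one_of_pos hEp
    have h13 : 1 - x⁻¹ ≤ Real.log x := Real.one_sub_inv_le_log_of_pos hEp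
    have h14 : 1 - x⁻¹ = (x - 1) * x⁻¹ := by field_simp
    have h15 : x⁻¹ ≤ 2 := by
      rw [inv_le_comm₀ hEp (by norm_num)]; linarith
    have h16 : -(2 * |x - 1|) ≤ 1 - x⁻¹ := by
      rw [h14]
      have h17 : |(x - 1) * x⁻¹| ≤ |x - 1| * 2 := by
        rw [abs_mul, abs_of_pos (inv_pos.2 hEp)]
        exact mul_le_mul_of_nonneg_left h15 (abs_nonneg _)
      have := (abs_le.1 h17).1
      linarith
    refine abs_le.2 ⟨h16.trans h13, h12.trans ?_⟩
    have := le_abs_self (x - 1)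
    have := abs_nonneg (x - 1)
    linarith
  refine h11.trans ?_
  calc 2 * |(1 - E).det - 1| ≤ 2 * (K * δ) := by linarith
    _ = 2 * K * δ := by ring

end Vale.Agent.P207.SPH.H647
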