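import Vale.Agent.P207.SPH.H647.Conv
import Vale.Agent.P207.SPH.H234.Eig

/-!
# P207, project SPH, row R13, final form (only `NStmt` as hypothesis)
-/

noncomputable section

namespace Vale.Agent.P207.SPH.H647

open Vale.Agent.P207.SPH

theorem convF (h6 : NStmt) : ConvStmt := conv h6 H234.eigD

end Vale.Agent.P207.SPH.H647
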