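import Vale.Agent.P207.SPH.Defs

/-!
# P207, project SPH, row R12: if `U = V` everywhere then everything is constant along the orbits
-/

open Matrix MeasureTheory Set Filter Topology

noncomputable section

namespace Vale.Agent.P207.SPH.H647

open Vale.Agent.P207.SPH

theorem par : ParStmt := by
  intro m X _ _ D hUV
  have h1 : ∀ f, D.K f = D.U f * D.U f := by
    intro f
    ext i j
    have h2 := D.dU f 0 i j
    have h3 := D.dV f 0 i j
    have h4 : (fun s => D.V (D.Φ s f) i j) = fun s => D.U (D.Φ s f) i j := by
      funext s; rw [hUV]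
    rw [h4] at h3
    have h5 := h2.unique h3
    rw [D.zero, ← hUV f, Matrix.sub_apply, Matrix.sub_apply] at h5
    linarith
  have h6 : ∀ t f, D.U (D.Φ t f) = D.U f := by
    intro t f
    ext i j
    have h7 : ∀ s, HasDerivAt (fun s => D.U (D.Φ s f) i j) 0 s := by
      intro s
      have h8 := D.dU f s i j
      rw [h1, sub_self] at h8
      exact h8
    have h9 := is_const_of_deriv_eq_zero (f := fun s => D.U (D.Φ s f) i j)
      (fun s => (h7 s).differentiableAt) (fun s => (h7 s).deriv) t 0
    rw [D.zero] at h9
    exact h9
  exact fun t f => ⟨h6 t f, by rw [h1, h1, h6]⟩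

end Vale.Agent.P207.SPH.H647
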