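import Vale.Agent.P207.SPH.H40.Wrap
import Vale.Agent.P207.SPH.H207.Grow
import Vale.Agent.P207.SPH.H128.Lyap
import Vale.Agent.P207.SPH.H234.Eig
import Vale.Agent.P207.SPH.H5.RigF
import Vale.Agent.P207.SPH.H522.N
import Vale.Agent.P207.SPH.H596.Loc
import Vale.Agent.P207.SPH.H647.Area
import Vale.Agent.P207.SPH.H647.ConvF
import Vale.Agent.P207.SPH.H647.Par
import Vale.Agent.P207.SPH.H752.Ky
import Vale.Agent.P207.SPH.H761.Comp
import Vale.Agent.P207.SPH.H761.Fund
import Vale.Agent.P207.SPH.H761.Jensen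
import Vale.Agent.P207.SPH.H761.Uniq
import Vale.Agent.P207.SPH.H453.JacGeo

/-!
# P207, SPH: all the rows, up to the row G1
-/

open scoped Manifold ContDiff ENNReal Topology Matrix
open Bundle MeasureTheory Set Filter

noncomputable section

namespace Vale.Agent.P207.SPH.H647

open Vale.Agent.P255 (RMetric)

/-- R6 -/
theorem nStmt : NStmt := H522.n H761.fund

/-- R16 -/
theorem mainStmt : MainStmt :=
  main_of (area H207.grow) H234.eig H752.kyStmt nStmt (H5.up H752.kyStmt)
    (H5.rig H752.kyStmt nStmt) par (convF nStmt) H761.jensen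
    (H128.lyap (H761.comp H207.grow) nStmt H234.eig H752.kyStmt (H5.up H752.kyStmt))

/-- the final theorem, from G1 -/
theorem wrap (hSys : SysGeoStmt) (n : ℕ) (hn : 3 ≤ n) (M : Type) [TopologicalSpace M]
    [CompactSpace M] [T2Space M]
    [ConnectedSpace M] [ChartedSpace (P207F.EV n) M] [IsManifold 𝓘(ℝ, P207F.EV n) ∞ M]
    [MeasurableSpace M] [BorelSpace M] :
    (∀ g : RMetric (P207F.EV n) M, P207F.WellDefined (P207F.stdB n) g) ∧
    ∀ g : RMetric (P207F.EV n) M, P207F.NegCurvature g →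
      ∃ χ : Fin (n - 1) → ℝ, P207F.IsLyap (P207F.stdB n) g χ ∧ (∀ i, 0 < χ i) ∧
        P207F.hLiou (P207F.stdB n) g ≤ ENNReal.ofReal (∑ i, χ i) ∧
        ENNReal.ofReal (∑ i, χ i) ≤ P207F.hTop g ∧
        P207F.SphereArea (P207F.stdB n) g χ ∧ P207F.AreaCriterion (P207F.stdB n) g χ :=
  wrap_of mainStmt (area H207.grow) (H761.comp H207.grow) (convF nStmt) H761.fund H752.kyStmt
    H234.eig hSys H453.jacGeo H596.loc H761.uniq n hn M

end Vale.Agent.P207.SPH.H647
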