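import Vale.Agent.P207.SPH.H647.Jac
import Vale.Agent.P207.Q.H130.RicUniq

/-!
# P207, project SPH, row R13: the converse

If `K` is constant along the orbits then `U = V` is constant along the orbits, and the `k`-volumes
grow exactly like `exp (T sg k S / 2)`.
-/

open Matrix MeasureTheory Set Filter Topology

noncomputable section

namespace Vale.Agent.P207.SPH.H647

open Vale.Agent.P207.SPH

variable {m : ℕ} {X : Type} [TopologicalSpace X]

theorem exists_bd [CompactSpace X] {U : X → Mt m} (hU : Continuous U) :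
    ∃ B : ℝ, ∀ f i j, |U f i j| ≤ B := by
  have hc : Continuous fun f => (fun i j => U f i j : Fin m → Fin m → ℝ) := by
    refine continuous_pi fun i => continuous_pi fun j => ?_
    exact hU.matrix_elem i j
  obtain ⟨B, hB⟩ := isCompact_univ.exists_bound_of_continuousOn hc.continuousOn
  refine ⟨B, fun f i j => ?_⟩
  have h1 := hB f (mem_univ _)
  have h2 : ‖U f i j‖ ≤ ‖(fun i j => U f i j : Fin m → Fin m → ℝ)‖ :=
    (norm_le_pi_norm (fun j => U f i j) j).trans
      (norm_le_pi_norm (fun i j => U f i j : Fin m → Fin m → ℝ) i)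
  exact (Real.norm_eq_abs _ ▸ h2).trans h1

theorem conv1 [CompactSpace X] (D : Sys m X) (hK : ∀ t f, D.K (D.Φ t f) = D.K f) :
    (∀ f, D.U f = D.V f) ∧ ∀ t f, D.U (D.Φ t f) = D.U f := by
  obtain ⟨B, hB⟩ := exists_bd D.cU
  obtain ⟨B', hB'⟩ := exists_bd D.cV
  refine ⟨fun f => ?_, fun h f => ?_⟩
  · have h1 := Q.H130.riccati_unique (U := fun s => D.U (D.Φ s f))
      (V := fun s => D.V (D.Φ (-s) f)) (K := fun _ => D.K f) (lam := D.a) (B := max B B')
      D.a_pos (fun i j t => by
        have := D.dU f t i j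
        rw [hK] at this
        exact this)
      (fun i j t => by
        have h2 : HasDerivAt (fun s => D.V (D.Φ s f) i j)
          ((D.V (D.Φ (-t) f) * D.V (D.Φ (-t) f) - D.K (D.Φ (-t) f)) i j) (-t) := D.dV f (-t) i j
        have h3 := h2.scomp t (hasDerivAt_neg t)
        rw [hK] at h3
        refine h3.congr_deriv ?_
        rw [Matrix.sub_apply, smul_eq_mul]
        ring)
      (fun t x => D.loU _ x) (fun t x => D.loV _ x)
      (fun t i j => (hB _ i j).trans (le_max_left _ _))
      (fun t i j => (hB' _ i j).trans (le_max_right _ _))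
    have h2 := congrFun h1 0
    simp only [neg_zero, D.zero] at h2
    exact h2
  · have h1 := Q.H130.riccati_unique (U := fun s => D.U (D.Φ s (D.Φ h f)))
      (V := fun s => D.U (D.Φ s f)) (K := fun _ => D.K f) (lam := D.a) (B := B)
      D.a_pos (fun i j t => by
        have := D.dU (D.Φ h f) t i j
        rw [hK, hK] at this
        exact this)
      (fun i j t => by
        have := D.dU f t i j
        rw [hK] at this
        exact this)
      (fun t x => D.loU _ x) (fun t x => D.loU _ x)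
      (fun t i j => hB _ i j) (fun t i j => hB _ i j)
    have h2 := congrFun h1 0
    simp only [D.zero] at h2
    exact h2

/-- the solution of `Y' = U₀ Y` in an orthonormal basis of eigenvectors -/
theorem Y_diag {Y : ℝ → Mt m} {U₀ O : Mt m} {e : Fin m → ℝ} (h0 : Y 0 = 1)
    (hY : ∀ t, MD Y (U₀ * Y t) t) (hO : Oᵀ * O = 1) (hU : U₀ = O * diagonal e * Oᵀ) (t : ℝ) :
    Y t = O * diagonal (fun i => Real.exp (t * e i)) * Oᵀ := by
  have hO' : O * Oᵀ = 1 := mul_eq_one_comm.1 hO
  have h1 : ∀ s, MD (fun s => Oᵀ * Y s * O) (diagonal e * (Oᵀ * Y s * O)) s := by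
    intro s
    have h2 := md_mul_const (md_mul (md_const Oᵀ s) (hY s)) O
    refine md_congr h2 ?_
    rw [Matrix.zero_mul, zero_add, hU]
    calc Oᵀ * (O * diagonal e * Oᵀ * Y s) * O = (Oᵀ * O) * diagonal e * (Oᵀ * Y s * O) := by
          simp only [Matrix.mul_assoc]
      _ = _ := by rw [hO, one_mul]
  have h3 : ∀ i j, (Oᵀ * Y t * O) i j = (diagonal (fun i => Real.exp (t * e i)) : Mt m) i j := by
    intro i j
    have h4 : ∀ s, HasDerivAt (fun s => Real.exp (-(s * e i)) * (Oᵀ * Y s * O) i j) 0 s := by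
      intro s
      have h5 := h1 s i j
      rw [Matrix.diagonal_mul] at h5
      have h6 : HasDerivAt (fun s => Real.exp (-(s * e i))) (Real.exp (-(s * e i)) * -(e i)) s := by
        have := ((hasDerivAt_id s).mul_const (e i)).neg.exp
        simpa using this
      refine (h6.mul h5).congr_deriv ?_
      ring
    have h7 := is_const_of_deriv_eq_zero
      (f := fun s => Real.exp (-(s * e i)) * (Oᵀ * Y s * O) i j)
      (fun s => (h4 s).differentiableAt) (fun s => (h4 s).deriv) t 0
    simp only [zero_mul, neg_zero, Real.exp_zero, one_mul, h0, mul_one, hO] at h7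
    rw [Matrix.one_apply] at h7
    rw [Matrix.diagonal_apply]
    split_ifs with h
    · rw [if_pos h] at h7
      rw [Real.exp_neg] at h7
      field_simp at h7
      exact h7
    · rw [if_neg h] at h7
      exact (mul_eq_zero.1 h7).resolve_left (Real.exp_pos _).ne'
  have h8 : Oᵀ * Y t * O = diagonal (fun i => Real.exp (t * e i)) := by
    ext i j; exact h3 i j
  rw [← h8]
  calc Y t = (O * Oᵀ) * Y t * (O * Oᵀ) := by rw [hO', one_mul, mul_one]
    _ = _ := by simp only [Matrix.mul_assoc]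

theorem conv2 {k : ℕ} (hk : k ≤ m) {S O : Mt m} {e : Fin m → ℝ} {T : ℝ} (hO : Oᵀ * O = 1)
    (hS : S = O * diagonal e * Oᵀ) (he : ∀ i, 0 < e i) {Y : Mt m}
    (hY : Y = O * diagonal (fun i => Real.exp (T * (e i / 2))) * Oᵀ) :
    ∃ W : Matrix (Fin m) (Fin k) ℝ, Wᵀ * S * W = 1 ∧
      (Wᵀ * (Yᵀ * S * Y) * W).det = Real.exp (T * psum k e) := by
  let E : Matrix (Fin m) (Fin k) ℝ := fun i j => if i = Fin.castLE hk j then (√(e i))⁻¹ else 0
  have key : ∀ d : Fin m → ℝ, Eᵀ * diagonal d * E =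
      diagonal fun j : Fin k => d (Fin.castLE hk j) / e (Fin.castLE hk j) := by
    intro d
    ext j j'
    rw [Matrix.mul_apply]
    simp only [Matrix.mul_diagonal, Matrix.transpose_apply]
    rw [Finset.sum_eq_single (Fin.castLE hk j)]
    · simp only [E, if_true, Matrix.diagonal_apply, Fin.castLE_inj]
      split_ifs with h
      · have h1 : √(e (Fin.castLE hk j)) * √(e (Fin.castLE hk j)) = e (Fin.castLE hk j) :=
          Real.mul_self_sqrt (he _).le
        have h2 : √(e (Fin.castLE hk j)) ≠ 0 := (Real.sqrt_pos.2 (he _)).ne'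
        have h3 := (he (Fin.castLE hk j)).ne'
        subst h
        have h4 : (√(e (Fin.castLE hk j)))⁻¹ * d (Fin.castLE hk j) *
            (√(e (Fin.castLE hk j)))⁻¹ = d (Fin.castLE hk j) *
            (√(e (Fin.castLE hk j)) * √(e (Fin.castLE hk j)))⁻¹ := by
          rw [mul_inv]; ring
        rw [h4, h1, div_eq_mul_inv]
      · rw [mul_zero]
    · intro i _ hi
      simp only [E, if_neg hi, zero_mul]
    · intro h; exact absurd (Finset.mem_univ _) h
  refine ⟨O * E, ?_, ?_⟩
  · rw [hS, Matrix.transpose_mul]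
    calc Eᵀ * Oᵀ * (O * diagonal e * Oᵀ) * (O * E)
        = Eᵀ * (Oᵀ * O) * diagonal e * (Oᵀ * O) * E := by simp only [Matrix.mul_assoc]
      _ = Eᵀ * diagonal e * E := by rw [hO, Matrix.mul_one, Matrix.mul_one]
      _ = 1 := by
        rw [key]
        have : (fun j : Fin k => e (Fin.castLE hk j) / e (Fin.castLE hk j)) = fun _ => 1 := by
          funext j; exact div_self (he _).ne'
        rw [this, Matrix.diagonal_one]
  · have h1 : Yᵀ * S * Y = O * diagonal (fun i => e i * Real.exp (T * e i)) * Oᵀ := by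
      rw [hY, hS]
      simp only [Matrix.transpose_mul, Matrix.transpose_transpose, Matrix.diagonal_transpose]
      calc O * (diagonal (fun i => Real.exp (T * (e i / 2))) * Oᵀ) * (O * diagonal e * Oᵀ) *
            (O * diagonal (fun i => Real.exp (T * (e i / 2))) * Oᵀ)
          = O * (diagonal (fun i => Real.exp (T * (e i / 2))) * (Oᵀ * O) * diagonal e *
            (Oᵀ * O) * diagonal (fun i => Real.exp (T * (e i / 2)))) * Oᵀ := by
            simp only [Matrix.mul_assoc]
        _ = _ := by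
          rw [hO, mul_one, mul_one, Matrix.diagonal_mul_diagonal, Matrix.diagonal_mul_diagonal]
          congr 3
          funext i
          have : Real.exp (T * e i) = Real.exp (T * (e i / 2)) * Real.exp (T * (e i / 2)) := by
            rw [← Real.exp_add]; congr 1; ring
          rw [this]; ring
    rw [h1, Matrix.transpose_mul]
    have h2 : Eᵀ * Oᵀ * (O * diagonal (fun i => e i * Real.exp (T * e i)) * Oᵀ) * (O * E) =
        Eᵀ * diagonal (fun i => e i * Real.exp (T * e i)) * E := by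
      calc Eᵀ * Oᵀ * (O * diagonal (fun i => e i * Real.exp (T * e i)) * Oᵀ) * (O * E)
          = Eᵀ * (Oᵀ * O) * diagonal (fun i => e i * Real.exp (T * e i)) * (Oᵀ * O) * E := by
            simp only [Matrix.mul_assoc]
        _ = _ := by rw [hO, Matrix.mul_one, Matrix.mul_one]
    rw [h2, key, Matrix.det_diagonal]
    have h3 : ∀ j : Fin k, e (Fin.castLE hk j) * Real.exp (T * e (Fin.castLE hk j)) /
        e (Fin.castLE hk j) = Real.exp (T * e (Fin.castLE hk j)) := fun j => by
      have := (he (Fin.castLE hk j)).ne'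
      field_simp
    rw [Finset.prod_congr rfl fun j _ => h3 j, ← Real.exp_sum, ← Finset.mul_sum]
    congr 2
    change _ = ∑ i : Fin m, if (i : ℕ) < k then e i else 0
    rw [← Finset.sum_filter]
    refine Finset.sum_bij (fun j _ => Fin.castLE hk j) (fun j _ => ?_) (fun a _ b _ h => ?_)
      (fun i hi => ?_) (fun j _ => rfl)
    · simp
    · exact Fin.castLE_injective hk h
    · rw [Finset.mem_filter] at hi
      exact ⟨⟨i, hi.2⟩, Finset.mem_univ _, by ext; rfl⟩

theorem conv (h6 : NStmt) (hD : ∀ (m : ℕ) (S : Mt m), Sᵀ = S → ∃ (O : Mt m) (e : Fin m → ℝ),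
    Oᵀ * O = 1 ∧ Antitone e ∧ S = O * Matrix.diagonal e * Oᵀ ∧ ∀ k ≤ m, sg k S = psum k e) :
    ConvStmt := by
  intro m X _ _ D hK
  obtain ⟨hUV, hU⟩ := conv1 D hK
  refine ⟨hUV, hU, fun Y hY k hk T hT f => ?_⟩
  have hSs : (D.S f)ᵀ = D.S f := by
    change (D.U f + D.V f)ᵀ = D.U f + D.V f
    rw [Matrix.transpose_add, D.sU, D.sV]
  obtain ⟨O, e, hO, -, hS, hsg⟩ := hD m (D.S f) hSs
  have hO' : O * Oᵀ = 1 := mul_eq_one_comm.1 hO
  -- `U = O diag(e/2) Oᵀ`
  have hU2 : D.U f = O * diagonal (fun i => e i / 2) * Oᵀ := by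
    have h1 : D.S f = (2 : ℝ) • D.U f := by
      change D.U f + D.V f = _
      rw [← hUV f, two_smul]
    have h2 : D.U f = (2 : ℝ)⁻¹ • D.S f := by
      rw [h1, smul_smul]; norm_num
    rw [h2]
    conv_lhs => rw [hS]
    rw [← Matrix.smul_mul, ← Matrix.mul_smul, ← Matrix.diagonal_smul]
    congr 3
    funext i
    simp only [Pi.smul_apply, smul_eq_mul]
    ring
  have he : ∀ i, 0 < e i := by
    intro i
    have h1 := D.loU f (O *ᵥ Pi.single i 1)
    have h2 := D.loV f (O *ᵥ Pi.single i 1)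
    have h3 : (O *ᵥ Pi.single i (1 : ℝ)) ⬝ᵥ (O *ᵥ Pi.single i 1) = 1 := by
      rw [Matrix.dotProduct_mulVec, Matrix.vecMul_mulVec, hO]
      simp
    have h4 : (O *ᵥ Pi.single i (1 : ℝ)) ⬝ᵥ (D.S f *ᵥ (O *ᵥ Pi.single i 1)) = e i := by
      rw [hS, Matrix.mulVec_mulVec, Matrix.dotProduct_mulVec, Matrix.vecMul_mulVec]
      have h5 : Oᵀ * (O * diagonal e * Oᵀ * O) = diagonal e := by
        calc Oᵀ * (O * diagonal e * Oᵀ * O) = (Oᵀ * O) * diagonal e * (Oᵀ * O) := by
              simp only [Matrix.mul_assoc]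
          _ = _ := by rw [hO, one_mul, mul_one]
      rw [h5]
      simp
    have h5 : (O *ᵥ Pi.single i (1 : ℝ)) ⬝ᵥ (D.S f *ᵥ (O *ᵥ Pi.single i 1)) =
        (O *ᵥ Pi.single i (1 : ℝ)) ⬝ᵥ (D.U f *ᵥ (O *ᵥ Pi.single i 1)) +
        (O *ᵥ Pi.single i (1 : ℝ)) ⬝ᵥ (D.V f *ᵥ (O *ᵥ Pi.single i 1)) := by
      change _ ⬝ᵥ ((D.U f + D.V f) *ᵥ _) = _
      rw [Matrix.add_mulVec, dotProduct_add]
    rw [h3] at h1 h2
    rw [h4] at h5
    rw [h5]
    have := D.a_pos
    linarith
  have hYT : Y T f = O * diagonal (fun i => Real.exp (T * (e i / 2))) * Oᵀ :=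
    Y_diag (Y := fun s => Y s f) (hY.zero f) (fun t => by
      have := hY.der f t
      rw [hU] at this
      exact this) hO hU2 T
  obtain ⟨W, hW, hdet⟩ := conv2 (S := D.S f) (T := T) hk hO hS he hYT
  have hST : D.S (D.Φ T f) = D.S f := by
    change D.U (D.Φ T f) + D.V (D.Φ T f) = D.U f + D.V f
    rw [← hUV, ← hUV, hU]
  have h7 := (h6 m X D Y hY k hk).1 T f
  obtain ⟨_, _, _, h8⟩ := h7
  have h9 := h8 W hW
  rw [hST, hdet] at h9
  rw [hsg k hk]
  exact h9

end Vale.Agent.P207.SPH.H647
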